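import Vale.Agent.P354L.Ex
import Vale.Agent.P354L.Gen

open Set Filter Topology

namespace Vale.Agent.Results.P354.CurvatureBlowup

open Vale.Agent.P354n (R4 IsSpacetime IsSmooth IsC0W1 IsFutureExtension IsInext IsVacuum IsGH IsMax
  InLp IsData IsDataSpace rev wave)
open Vale.Agent.P354L
open Vale.Agent.P354v.G.N (wave_spacetime wave_vacuum wave_gh ext_p ext_lip)

/-- Let Reg be the class of locally Lipschitz functions, or C^0 and W^{1,∞}_loc, and let M be a
smooth time oriented spacetime. (1) No future extension of class Reg goes through an end of M which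
is a null hypersurface where the curvature blows up (its integrals over boxes are unbounded near
every point or, more generally, it is not bounded as a distribution of order one), a corner of two
of them, or far away. (2) If every future timelike curve without end point ends so, there is no
such extension. (3) If M is not empty and all future and all past timelike curves without end point
end so, M is not a proper open part of a connected spacetime of class Reg. (4) The plane wave of f
is a globally hyperbolic vacuum spacetime; all its future ends are of this kind if and only if f is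
not bounded near v = 0, if and only if it has no future extension of class Reg. (5) For some f the
future and the past ends are of this kind, but there is a connected future extension which is of
class C^0 and W^{1,q}_loc for all q < ∞. (6) In every space E of such functions f, for all f outside of a meagre
subset of E, the future and past ends of the plane wave of f are of this kind; it is a maximal
globally hyperbolic vacuum development and not a proper open part of a connected spacetime of class
Reg. -/
theorem result (Reg : (R4 → ℝ) → Set R4 → Prop) (hR : Reg = IsLip ∨ Reg = IsC0W1 ⊤) :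
    (∀ M, IsSpacetime IsSmooth M → (∀ N ι c a, IsFutureExtension Reg M N ι c →
      (∀ t ∈ Ico (0 : ℝ) 1, ι (a t) = c t) → ¬ Ends M a) ∧
      (AllEnd M → ∀ N ι c, ¬ IsFutureExtension Reg M N ι c) ∧
      (Nonempty M.pt → AllEnd M → AllEnd (rev M) → IsInext Reg M)) ∧
    (∀ f, IsData f → IsSpacetime IsSmooth (wave f) ∧ IsVacuum (wave f) ∧ IsGH (wave f) ∧
      (AllEnd (wave f) ↔ ¬ InLp ⊤ f (-(1 / 2))) ∧
      ((∃ N ι c, ConnectedSpace N.pt ∧ IsFutureExtension Reg (wave f) N ι c) ↔
        InLp ⊤ f (-(1 / 2)))) ∧
    (∃ f, IsData f ∧ AllEnd (wave f) ∧ AllEnd (rev (wave f)) ∧ IsMax (wave f) ∧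
      ∃ N ι c, ConnectedSpace N.pt ∧ ∀ q < ⊤, IsFutureExtension (IsC0W1 q) (wave f) N ι c) ∧
    ∀ (E : Type) [AddCommGroup E] [Module ℝ E] [TopologicalSpace E] (T : E →ₗ[ℝ] ℝ → ℝ),
      IsDataSpace ⊤ T → IsMeagre {x | ¬ (AllEnd (wave (T x)) ∧ AllEnd (rev (wave (T x))) ∧
        IsMax (wave (T x)) ∧ IsInext Reg (wave (T x)))} := by
  have hext : ∀ f, IsData f → InLp ⊤ f (-(1 / 2)) →
      ∃ N ι c, ConnectedSpace N.pt ∧ IsFutureExtension Reg (wave f) N ι c := by
    intro f hf hin
    rcases hR with rfl | rfl
    · exact ext_lip hf hin
    · exact ext_p hf le_top hin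
  refine ⟨fun M hM => ⟨(inext1 hR hM).1, (inext1 hR hM).2, fun h0 h1 h2 => inext2 hR hM h0 h1 h2⟩,
    fun f hf => ⟨wave_spacetime hf, wave_vacuum hf, wave_gh hf, ⟨fun h hin => ?_, future_end hf⟩,
      ⟨?_, hext f hf⟩⟩, sharp, ?_⟩
  · obtain ⟨N, ι, c, -, hE⟩ := hext f hf hin
    exact (inext1 hR (wave_spacetime hf)).2 h N ι c hE
  · rintro ⟨N, ι, c, -, hE⟩
    by_contra hn
    exact (inext1 hR (wave_spacetime hf)).2 (future_end hf hn) N ι c hE
  · intro E _ _ _ T ⟨_, _, _, h1, h2, x1, x2, n1, n2⟩
    exact generic hR T h1 h2 n1 n2

end Vale.Agent.Results.P354.CurvatureBlowup
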